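import Vale.Agent.P275Z.Ty
import Vale.Agent.P275RH.MkD

/-!
# P275, skeleton: the Betti spaces and the Riemann-Hilbert correspondence in families
-/

open scoped Real
open Matrix Set
open Vale.Agent.P281Z.Hm (Mx)
open Vale.Agent.P275GC (At)
open Vale.Agent.P275NA (Cy)
open Vale.Agent.P275MO
open Vale.Agent.P275ST (zeta)
open Vale.Agent.P275RH (cwd)

noncomputable section

namespace Vale.Agent.P275Z

variable {n : ℕ}

/-- tuples of matrices of determinant one -/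
abbrev Tup (g n : ℕ) : Type := Fin g × Bool → SpecialLinearGroup (Fin n) ℂ

/-- the value of a word on a tuple -/
def wv {g : ℕ} (ρ : Tup g n) (w : FreeGroup (Fin g × Bool)) : Mx (Fin n) :=
  (FreeGroup.lift ρ w).1

/-- the local monodromy of the residue `R` -/
def mon (d : ℤ) (R : Mx (Fin n)) : Mx (Fin n) :=
  zeta n d • NormedSpace.exp ((-(2 * π * Complex.I)) • R)

/-- generic residues: no resonance and no reducible object -/
def Gen (d : ℤ) (R : Mx (Fin n)) : Prop :=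
  (∀ a ∈ R.charpoly.roots, ∀ b ∈ R.charpoly.roots, ∀ k : ℤ, a - b = k → k = 0) ∧
    ∀ s ≤ R.charpoly.roots, s ≠ 0 → s ≠ R.charpoly.roots → ∀ k : ℤ,
      s.sum - Multiset.card s * d / n ≠ k

/-- framed Betti objects -/
def BFr (g : ℕ) (d : ℤ) (q : Submodule ℂ (Mx (Fin n))) : Type :=
  {p : Mx (Fin n) × Tup g n // p.1 ∈ q ∧ Gen d p.1 ∧ wv p.2 (cwd g) = mon d p.1}

instance (g : ℕ) (d : ℤ) (q : Submodule ℂ (Mx (Fin n))) : TopologicalSpace (BFr g d q) :=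
  inferInstanceAs (TopologicalSpace (Subtype _))

/-- `ρ'` is the tuple `ρ` in the frame `h` -/
def Cj {g : ℕ} (h : Mx (Fin n)) (ρ ρ' : Tup g n) : Prop := ∀ s, (ρ' s).1 = h⁻¹ * (ρ s).1 * h

/-- conjugation by the units of `H` -/
def BFr.Rl {g : ℕ} {d : ℤ} (τ : Ty n) (p p' : BFr g d τ.q) : Prop :=
  ∃ h ∈ τ.H, h.det ≠ 0 ∧ p'.1.1 = h⁻¹ * p.1.1 * h ∧ Cj h p.1.2 p'.1.2

/-- the Betti moduli space -/
def Bet (g : ℕ) (d : ℤ) (τ : Ty n) : Type := Quot (BFr.Rl (g := g) (d := d) τ)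

instance (g : ℕ) (d : ℤ) (τ : Ty n) : TopologicalSpace (Bet g d τ) :=
  inferInstanceAs (TopologicalSpace (Quot _))

/-- the point of a framed object -/
def BFr.pt {g : ℕ} {d : ℤ} (τ : Ty n) (p : BFr g d τ.q) : Bet g d τ := Quot.mk _ p

/-- a change of the marking which keeps the loop around the puncture, and a change of the root
of the determinant -/
structure Aut (g n : ℕ) where
  φ : FreeGroup (Fin g × Bool) ≃* FreeGroup (Fin g × Bool)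
  fix : φ (cwd g) = cwd g
  χ : Fin g × Bool → ℂ
  root : ∀ s, χ s ^ n = 1

/-- `ρ'` is the image of `ρ` -/
def Aut.Im {g : ℕ} (t : Aut g n) (ρ ρ' : Tup g n) : Prop :=
  ∀ s, (ρ' s).1 = t.χ s • wv ρ (t.φ (FreeGroup.of s))

variable {C : Type} [TopologicalSpace C]

/-- the de Rham moduli space over `V`, generic residues -/
def DR (A : At C) (l : Cy A ℂ) (d : ℤ) (τ : Ty n) (V : Set C) : Set (Mod A l τ) :=
  {y | y.lam = 1 ∧ y.x ∈ V ∧ Gen d y.rep.1.R}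

/-- `z` and `z'` have the same pole and are isomorphic away from it by a map `φ` of determinant
one which sends the canonical flat frames to each other: in a chart at the pole,
`φ = G' (w - x)^(-R') h (w - x)^R G⁻¹` with `G`, `G'` holomorphic with values `σ`, `σ'` at the
pole -/
structure Off (A : At C) (z z' : Dat C A.N n) (h : Mx (Fin n)) : Prop where
  lam : z.lam = 1
  lam' : z'.lam = 1
  x : z'.x = z.x
  ex : ∃ (r : ℝ) (h1 : 1 < r) (h2 : r ≤ A.R) (φ : Fin A.N → ℂ → Mx (Fin n)),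
    (∀ i, DifferentiableOn ℂ (φ i) (off (A.res r h1 h2) z.x i)) ∧
    (∀ i, ∀ w ∈ off (A.res r h1 h2) z.x i, (φ i w).det = 1 ∧
      ∃ c : ℂ, deriv (φ i) w + z'.a i w * φ i w = φ i w * z.a i w + c • φ i w) ∧
    (∀ i j, ∀ w ∈ (A.res r h1 h2).O i j, (A.e i).symm w ≠ z.x →
      φ i w * z.g i j w = z'.g i j w * φ j (A.tr i j w)) ∧
    ∃ i, (z.x ∈ (A.e i).source ∧ ‖A.e i z.x‖ < 1) ∧ ∃ (G G' : ℂ → Mx (Fin n)) (u : ℂ → ℂ),
      (∀ a b, AnalyticAt ℂ (fun w => G w a b) (A.e i z.x)) ∧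
      (∀ a b, AnalyticAt ℂ (fun w => G' w a b) (A.e i z.x)) ∧
      G (A.e i z.x) = z.σ i ∧ G' (A.e i z.x) = z'.σ i ∧
      ∀ᶠ w in nhdsWithin (A.e i z.x) {A.e i z.x}ᶜ,
        deriv G w + z.a i w * G w = (w - A.e i z.x)⁻¹ • (G w * z.R) ∧
        deriv G' w + z'.a i w * G' w = (w - A.e i z.x)⁻¹ • (G' w * z'.R) ∧
        ∀ L : ℂ, Complex.exp L = w - A.e i z.x →
          φ i w * G w * NormedSpace.exp ((-L) • z.R) =
            u w • (G' w * NormedSpace.exp ((-L) • z'.R) * h)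

/-- **Riemann-Hilbert data**: a finite cover of the curve with constant transitions, and the
monodromy relation `Rel i z ρ` for objects with pole in `V i` -/
structure RHD (A : At C) (l : Cy A ℂ) (g n : ℕ) (d : ℤ) where
  N : ℕ
  V : Fin N → Set C
  opn : ∀ i, IsOpen (V i)
  cov : ∀ x, ∃ i, x ∈ V i
  conn : ∀ i, IsPreconnected (V i)
  t : Fin N → Fin N → Aut g n
  Rel : Fin N → Dat C A.N n → Tup g n → Prop
  act : ∀ i z ρ ρ' h, Rel i z ρ → h.det ≠ 0 → Cj h ρ ρ' → Rel i (z.act h) ρ'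
  trn : ∀ i j z ρ ρ', Rel i z ρ → z.x ∈ V j → (t i j).Im ρ ρ' →
    ∃ (c : ℂ) (ρ'' : Tup g n), Cj (NormedSpace.exp (c • z.R)) ρ' ρ'' ∧ Rel j z ρ''
  off : ∀ i z z' ρ ρ' h, Rel i z ρ → Rel i z' ρ' → Off A z z' h →
    ∃ (c c' : ℂ), Cj (NormedSpace.exp (c • z'.R) * h * NormedSpace.exp (c' • z.R)) ρ' ρ
  iso : ∀ i z z' ρ ρ' (r : ℝ) (h1 : 1 < r) (h2 : r ≤ A.R) φ h, Rel i z ρ → Rel i z' ρ' →
    IsoBy (A.res r h1 h2) z z' φ h → ∃ c : ℂ, Cj (NormedSpace.exp (c • z'.R) * h) ρ' ρ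
  cont : ∀ i (T : Type) [TopologicalSpace T] (F : T → Dat C A.N n) (t : T), FamAt A l F t →
    (∀ᶠ s in nhds t, (F s).lam = 1 ∧ (F s).x ∈ V i ∧ Gen d (F s).R) →
    ∃ W ∈ nhds t, ∃ ρ : T → Tup g n, ContinuousOn ρ W ∧ ∀ s ∈ W, Rel i (F s) (ρ s)
  mov : ∀ i z z' ρ ρ' (r : ℝ) (h1 : 1 < r) (h2 : r ≤ A.R), Rel i z ρ → Rel i z' ρ' → z.R = 0 →
    z'.R = 0 → z'.g = z.g → (∀ k, ∀ w ∈ P275MO.off (A.res r h1 h2) z.x k,
      w ∈ P275MO.off (A.res r h1 h2) z'.x k → z'.a k w = z.a k w) →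
    ∃ h : Mx (Fin n), h.det ≠ 0 ∧ Cj h ρ ρ'
  Ψ : ∀ (τ : Ty n), (∀ R ∈ τ.q, R ∈ τ.H) → ∀ i, DR A l d τ (V i) ≃ₜ V i × Bet g d τ
  spec : ∀ (τ : Ty n) (hτ : ∀ R ∈ τ.q, R ∈ τ.H) i (z : Ob A l τ) (hz : z.pt ∈ DR A l d τ (V i)),
    (∃ ρ, Rel i z.1 ρ) ∧ ∀ ρ, Rel i z.1 ρ → ∃ p : BFr g d τ.q, p.1 = (z.1.R, ρ) ∧
      ((Ψ τ hτ i ⟨z.pt, hz⟩).1 : C) = z.1.x ∧ (Ψ τ hτ i ⟨z.pt, hz⟩).2 = p.pt τ

end Vale.Agent.P275Z
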