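import Vale.Agent.P275Z.Top
import Vale.Agent.P275Z.RHF
import Vale.Agent.P275AD.Defs
import Vale.Agent.P275RH.Hol

/-!
# P275, skeleton: the bridge between the statement and the moduli spaces
-/

open scoped Topology ContDiff Matrix.Norms.Operator
open Filter Set
open Vale.Agent.P275GC (At)
open Vale.Agent.P275NA (Cy Fm Mn dz db)
open Vale.Agent.P275MO
open Vale.Agent.P275AD (Ok Dv Ad hx pt)
open Vale.Agent.P275ST (Higgs Marking Pc Rep XB Base NAH deg)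

noncomputable section

namespace Vale.Agent.P275Z

section mon

variable {C : Type} [TopologicalSpace C] [ChartedSpace ℂ C] {g n : ℕ} {p : C} {x₀ : Pc p}

/-- `x` lies in the unit disc of the chart `i` -/
def InU (A : At C) (i : Fin A.N) (x : C) : Prop := x ∈ (A.e i).source ∧ ‖A.e i x‖ < 1

/-- `ρ` is the monodromy, for the marking `M`, of a multivalued smooth frame of `z` over
`C ∖ {p}` which is parallel up to scalars and has determinant `u` -/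
def Mon (A : At C) (M : Marking g p x₀) (u : Fm A ℂ) (z : Dat C A.N n) (ρ : Tup g n) : Prop :=
  ∃ F : ∀ x : Pc p, Path.Homotopic.Quotient x₀ x → Fm A (Mn n),
    (∀ (x : Pc p) γ i, InU A i x → ContDiffAt ℝ ∞ (F x γ i) (A.e i x) ∧
      (∀ᶠ w in 𝓝 (A.e i x), (F x γ i w).det = u i w ∧ ∃ α β : ℂ,
        dz (F x γ i) w + z.a i w * F x γ i w = α • F x γ i w ∧ db (F x γ i) w = β • F x γ i w) ∧
      ∀ j, InU A j x → ∀ᶠ w in 𝓝 (A.e i x), F x γ i w = z.g i j w * F x γ j (A.tr i j w)) ∧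
    (∀ (x : Pc p) γ i, InU A i x → ∃ V ∈ 𝓝 x, ∀ (y : Pc p) (δ : Path x y), (∀ t, δ t ∈ V) → InU A i y →
      F y (γ.trans (Path.Homotopic.Quotient.mk δ)) i =ᶠ[𝓝 (A.e i y)] F x γ i) ∧
    ∀ s i, InU A i x₀ → ∀ᶠ w in 𝓝 (A.e i x₀), F x₀ (M.e (FreeGroup.of s)).toPath i w =
      F x₀ (Path.Homotopic.Quotient.refl x₀) i w * (ρ s).1

/-- the trivialisation `ℓ` of `O(D)` read in the frames of the cocycle with the meromorphic
section `s` -/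
def trv (A : At C) (s : Fm A ℂ) (ℓ : C → ℂ) : Fm A ℂ :=
  fun i w => hx (fun w' => ℓ (pt A i w') * s i w') w

/-- the object `z` without pole represents the Higgs bundle `E` -/
def Rp (A : At C) {D : C →₀ ℤ} (E : Higgs C n D) (z : Dat C A.N n) : Prop :=
  z.lam = 0 ∧ ∃ (r : ℝ) (h1 : 1 < r) (h2 : r ≤ A.R) (a σ : Fm A (Mn n)),
    Ad (A.res r h1 h2) E z.g a σ ∧ ∀ i, ∀ w ∈ off (A.res r h1 h2) z.x i, a i w = z.a i w

/-- Canonical flat frames `Y a z` over the sets `U a` of a finite cover of `C ∖ {p}` and `Y0 z`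
over a neighbourhood `D` of `p`, for the flat objects `z` without pole; `γ` is a cocycle of words
which near `p` are powers of the meridian. -/
structure Flt (A : At C) (l : Cy A ℂ) (g n : ℕ) (p : C) (Rel : Dat C A.N n → Tup g n → Prop) where
  M : ℕ
  U : Fin M → Set (Pc p)
  k : Fin M → Fin A.N
  sub : ∀ a, ∀ x ∈ U a, InU A (k a) x
  γ : Fin M → Fin M → Pc p → FreeGroup (Fin g × Bool)
  cy : P275RH.Cy U γ
  k0 : Fin A.N
  D : Set C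
  opn : IsOpen D
  mem : p ∈ D
  sub0 : ∀ x ∈ D, InU A k0 x
  θ : Fin M → Pc p → ℂ
  s : ℤ
  hs : s ≠ 0
  log : ∀ a, ∀ x ∈ U a, x.1 ∈ D → Complex.exp (θ a x) = A.e k0 x - A.e k0 p ∧
    ContinuousAt (θ a) x ∧ ∀ b, x ∈ U b → ∃ m : ℤ, θ a x - θ b x = m * (2 * Real.pi * Complex.I) ∧
      γ a b x = P275RH.cwd g ^ (s * m)
  Y : Fin M → Dat C A.N n → Pc p → Mn n
  Y0 : Dat C A.N n → C → Mn n
  law : ∀ z ρ, Rel z ρ → z.x = p → z.R = 0 → (∀ x ∈ D, (Y0 z x).det ≠ 0) ∧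
    ∀ a, ∀ x ∈ U a, (Y a z x).det ≠ 0 ∧
      (∀ b, x ∈ U b → ∃ c : ℂ, Y a z x =
        c • (z.g (k a) (k b) (A.e (k a) x) * Y b z x * wv ρ (γ b a x))) ∧
      (x.1 ∈ D → ∃ c : ℂ, Y a z x = c • (z.g (k a) k0 (A.e (k a) x) * Y0 z x))
  nat : ∀ z z' ρ ρ' (r : ℝ) (h1 : 1 < r) (h2 : r ≤ A.R) φ h, Rel z ρ → Rel z' ρ' → z.x = p →
    z.R = 0 → IsoBy (A.res r h1 h2) z z' φ h →
    (∀ x ∈ D, ∃ c : ℂ, φ k0 (A.e k0 x) * Y0 z x = c • (Y0 z' x * h)) ∧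
    ∀ a, ∀ x ∈ U a, ∃ c : ℂ, φ (k a) (A.e (k a) x) * Y a z x = c • (Y a z' x * h)
  cont : ∀ (T : Type) [TopologicalSpace T] (F : T → Dat C A.N n) (W : Set T) (r : ℝ) (h1 : 1 < r)
    (h2 : r ≤ A.R), FamOn (A.res r h1 h2) l F W →
    (∀ t ∈ W, (F t).x = p ∧ (F t).R = 0 ∧ ∃ ρ, Rel (F t) ρ) →
    ContinuousOn (fun q : T × C => Y0 (F q.1) q.2) (W ×ˢ D) ∧
    ∀ a, ContinuousOn (fun q : T × Pc p => Y a (F q.1) q.2) (W ×ˢ U a)

end mon

/-- an atlas and a cocycle for the line bundle of the statement -/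
structure Sit.Atl (S : Sit) where
  A : At S.C
  ok : Ok A
  l : Cy A ℂ
  s : Fm A ℂ
  dv : Dv A S.D l s
  std : Std A l S.n (deg S.D)

/-- the moduli space of type `τ` -/
abbrev Sit.Atl.M {S : Sit} (T : S.Atl) (τ : Ty S.n) : Type := Mod T.A T.l τ

/-- existence of an atlas -/
def ATL : Prop := ∀ S : Sit, Nonempty S.Atl

/-- Riemann-Hilbert data which at `p` use the marking of the statement -/
structure Sit.RH (S : Sit) (T : S.Atl) extends RHD T.A T.l S.g S.n (deg S.D) where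
  i0 : Fin N
  hp : S.p ∈ V i0
  mon : ∀ (z : Ob T.A T.l (tauX S.n)) ρ, z.1.x = S.p → Rel i0 z.1 ρ →
    Mon T.A S.M (trv T.A T.s S.ℓ) z.1 ρ
  flt : Flt T.A T.l S.g S.n S.p (Rel i0)

/-- **Riemann-Hilbert in families** -/
def RHF : Prop := ∀ (S : Sit) (T : S.Atl), Nonempty (S.RH T)

/-- Higgs bundles of the statement and points of the moduli space -/
def RPA : Prop := ∀ (S : Sit) (T : S.Atl),
  (∀ E : Higgs S.C S.n S.D, ∃ z : Ob T.A T.l (tauX S.n), z.1.x = S.p ∧ Rp T.A E z.1) ∧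
  (∀ z : Ob T.A T.l (tauX S.n), z.1.lam = 0 → ∃ E : Higgs S.C S.n S.D, Rp T.A E z.1) ∧
  ∀ (E E' : Higgs S.C S.n S.D) (z z' : Ob T.A T.l (tauX S.n)), z'.1.x = z.1.x → Rp T.A E z.1 →
    Rp T.A E' z'.1 → (E.Iso E' ↔ z.pt = z'.pt)

/-- **The bridge**: the nonabelian Hodge section `sg` over `0 ≤ λ ≤ 1` -/
structure Sit.Brg (S : Sit) where
  T : S.Atl
  R : S.RH T
  sg : C(unitInterval × XB S.g S.n (deg S.D), T.M (tauX S.n))
  lam : ∀ t x, (sg (t, x)).lam = (t : ℝ)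
  x : ∀ t x, (sg (t, x)).x = S.p
  emb : Topology.IsEmbedding fun x => sg (0, x)
  rng : ∀ y : T.M (tauX S.n), y.lam = 0 → y.x = S.p → ∃ x, sg (0, x) = y
  one : ∀ ρ : Rep S.g S.n (deg S.D), ∃ z : Ob T.A T.l (tauX S.n),
    z.pt = sg (1, ρ.pt) ∧ R.Rel R.i0 z.1 ρ.1
  nah : ∀ (E : Higgs S.C S.n S.D) ρ, NAH S.M S.ℓ E ρ ↔
    ∃ z : Ob T.A T.l (tauX S.n), z.pt = sg (0, ρ.pt) ∧ Rp T.A E z.1

/-- existence of the bridge -/
def BRG : Prop := ∀ S : Sit, Nonempty S.Brg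

/-- the Hitchin map on the Dolbeault space is continuous and proper -/
def HITX : Prop := ∀ (S : Sit) (T : S.Atl),
  ∃ h : {y : T.M (tauX S.n) // y.lam = 0 ∧ y.x = S.p} → Base S.C S.n, IsProperMap h ∧
    ∀ (E : Higgs S.C S.n S.D) (z : Ob T.A T.l (tauX S.n)) hz, Rp T.A E z.1 → E.Hit (h ⟨z.pt, hz⟩)

theorem nahb_of (h1 : BRG) (h2 : RPA) (h3 : HITX) : NAHB := by
  intro S
  obtain ⟨B⟩ := h1 S
  obtain ⟨a1, a2, a3⟩ := h2 S B.T
  obtain ⟨h, hp, hh⟩ := h3 S B.T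
  have m0 : ∀ x, (B.sg (0, x)).lam = 0 ∧ (B.sg (0, x)).x = S.p := fun x =>
    ⟨by simpa using B.lam 0 x, B.x 0 x⟩
  let ι : XB S.g S.n (deg S.D) → {y : B.T.M (tauX S.n) // y.lam = 0 ∧ y.x = S.p} :=
    fun x => ⟨B.sg (0, x), m0 x⟩
  have hι : IsHomeomorph ι := by
    refine isHomeomorph_iff_isEmbedding_surjective.2 ⟨?_, fun y => ?_⟩
    · exact Topology.IsEmbedding.of_comp (B.emb.continuous.subtype_mk _) continuous_subtype_val B.emb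
    · obtain ⟨x, hx⟩ := B.rng y.1 y.2.1 y.2.2
      exact ⟨x, Subtype.ext hx⟩
  have hp' : IsProperMap (h ∘ ι) := hp.comp hι.homeomorph.isProperMap
  refine ⟨fun E => ?_, fun ρ => ?_, fun E E' ρ ρ' e e' => ?_, ⟨h ∘ ι, hp'.continuous⟩, ?_, hp'⟩
  · obtain ⟨z, hz, hE⟩ := a1 E
    obtain ⟨x, hx⟩ := B.rng z.pt hE.1 hz
    obtain ⟨ρ, rfl⟩ := Quot.exists_rep x
    exact ⟨ρ, (B.nah E ρ).2 ⟨z, hx.symm, hE⟩⟩
  · obtain ⟨z, hz⟩ := pt_surj (B.sg (0, ρ.pt))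
    obtain ⟨E, hE⟩ := a2 z (by have := (m0 ρ.pt).1; rwa [← hz] at this)
    exact ⟨E, (B.nah E ρ).2 ⟨z, hz, hE⟩⟩
  · obtain ⟨z, hz, hE⟩ := (B.nah E ρ).1 e
    obtain ⟨z', hz', hE'⟩ := (B.nah E' ρ').1 e'
    have hx : z'.1.x = z.1.x := by
      have b1 := (m0 ρ.pt).2
      have b2 := (m0 ρ'.pt).2
      rw [← hz] at b1
      rw [← hz'] at b2
      exact b2.trans b1.symm
    rw [a3 E E' z z' hx hE hE', hz, hz']
    exact B.emb.injective.eq_iff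
  · intro E ρ e
    obtain ⟨z, hz, hE⟩ := (B.nah E ρ).1 e
    have := hh E z (hz ▸ m0 ρ.pt) hE
    have e2 : (⟨z.pt, hz ▸ m0 ρ.pt⟩ : {y : B.T.M (tauX S.n) // y.lam = 0 ∧ y.x = S.p}) = ι ρ.pt :=
      Subtype.ext hz
    rwa [e2] at this

end Vale.Agent.P275Z
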