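import Vale.Agent.P275ST.Stmt
import Vale.Agent.P275PA.CD

/-!
# P275, skeleton, level one: the statement from the top blocks
-/

open scoped Manifold ContDiff Topology
open CategoryTheory CategoryTheory.Pretriangulated Limits
open P275S (Sh Der Cx KG sec app cst pushC push Stk Gam I cls)
open P275PA (Hv Gv act endMap OntoF el)
open Vale.Agent.P275ST

noncomputable section

namespace Vale.Agent.P275Z

section field

variable (k : Type) [Field k] {X Y : TopCat.{0}}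

/-- cocycles of `Γ(X, I)` over the field `k` -/
abbrev CocyK (X : TopCat.{0}) (m : ℤ) : Type :=
  {c : sec ((I k X).X m) ⊤ // app ((I k X).d m (m + 1)) ⊤ c = 0}

/-- `Rf_* k_X` -/
abbrev RK (f : X ⟶ Y) : Der k Y := DerivedCategory.Q.obj ((pushC k f).obj (I k X))

variable {k}

/-- the sheaf `G` in degree `m` -/
abbrev sgK (G : Sh k Y) (m : ℤ) : Der k Y :=
  DerivedCategory.Q.obj ((CochainComplex.singleFunctor (Sh k Y) m).obj G)

/-- the class of a cocycle -/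
def clsK (f : X ⟶ Y) {m : ℤ} (c : CocyK k X m) : sgK (cst k Y) m ⟶ RK k f :=
  cls (F := (pushC k f).obj (I k X)) (c.1 : sec ((I k X).X m) ⊤) c.2

/-- the stalks of `G` vanish outside `Z` -/
def SuppK (G : Sh k Y) (Z : Set Y) : Prop := ∀ y ∉ Z, IsZero ((Stk k y).obj G)

section perverse

variable {V : Type} [AddCommGroup V] [Module ℂ V] [TopologicalSpace V]

/-- support condition -/
def PLEK (c : ℤ) (A : Der k (TopCat.of V)) : Prop :=
  (∃ b, A.IsGE b) ∧ ∀ i : ℤ, ∃ Z : Set V, ZarLE Z (c - i) ∧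
    SuppK ((DerivedCategory.homologyFunctor _ i).obj A) Z

/-- cosupport condition -/
def PGTK (c : ℤ) (B : Der k (TopCat.of V)) : Prop :=
  ∀ (i : ℤ) (Z : Set V), ZarLE Z (c - i) → ∀ G : Sh k (TopCat.of V), SuppK G Z →
    ∀ φ : sgK G i ⟶ B, φ = 0

/-- perverse truncation -/
def TruncK (c : ℤ) {A K : Der k (TopCat.of V)} (u : A ⟶ K) : Prop :=
  ∃ (B : Der k (TopCat.of V)) (v : K ⟶ B) (w : B ⟶ A⟦(1 : ℤ)⟧),
    Triangle.mk u v w ∈ distTriang (Der k (TopCat.of V)) ∧ PLEK c A ∧ PGTK c B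

end perverse

/-- the class of `c` comes from `A` -/
def InImK (f : X ⟶ Y) {A : Der k Y} (u : A ⟶ RK k f) {m : ℤ} (c : CocyK k X m) : Prop :=
  ∃ φ : sgK (cst k Y) m ⟶ A, φ ≫ u = clsK f c

/-- the class of `c` has weight at most `w` -/
def InWK (j : X ⟶ Y) (w : ℤ) {m : ℤ} (c : CocyK k X m) : Prop :=
  InImK j ((DerivedCategory.TStructure.t.truncLEι (w - m)).app (RK k j)) c

variable (k) in
/-- the last clause of the statement, over the field `k` -/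
def Concl {g n : ℕ} {d : ℤ} {V : Type} [AddCommGroup V] [Module ℂ V] [TopologicalSpace V]
    (h : C(XB g n d, V)) : Prop :=
  ∀ i : ℕ,
    (∃ (A : Der k (TopCat.of V)) (u : A ⟶ RK k (TopCat.ofHom h)), TruncK (i + dimR g n) u) ∧
    ∀ (A : Der k (TopCat.of V)) (u : A ⟶ RK k (TopCat.ofHom h)), TruncK (i + dimR g n) u →
      ∀ (K : Cpt g n d) (m : ℕ) (c : CocyK k (TopCat.of (XB g n d)) m),
        (InImK (TopCat.ofHom h) u c ↔ InWK K.hom (2 * i) c) ∧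
        (InWK K.hom (2 * i) c ↔ InWK K.hom (2 * i + 1) c)

end field

section ops

variable {X Y : TopCat.{0}}

/-- the resolution of `ℂ_X`; its graded endomorphism ring is the cohomology ring -/
abbrev IX (X : TopCat.{0}) : KG ℂ (Sh ℂ X) := KG.of (I ℂ X)

/-- `Rh_* ℂ_X` -/
abbrev KK (h : X ⟶ Y) : KG ℂ (Sh ℂ Y) := KG.of ((pushC ℂ h).obj (I ℂ X))

/-- the total cohomology `H^*(X, ℂ)` -/
abbrev HX (X : TopCat.{0}) : Type := Hv (Gam ℂ ⊤) (IX X)

/-- multiplication by a class, on `Rh_* ℂ_X` -/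
def mulK (h : X ⟶ Y) : End (IX X) →ₐ[ℂ] End (KK h) := endMap ℂ (KG.map ℂ (push ℂ h)) (IX X)

/-- multiplication by a class, on `H^*(X)` -/
def mulH (X : TopCat.{0}) : End (IX X) →ₐ[ℂ] Module.End ℂ (HX X) := act (Gam ℂ ⊤) (IX X)

/-- the action of the endomorphisms of `Rh_* ℂ_X` on `H^*(X)` -/
def glob (h : X ⟶ Y) : End (KK h) →ₐ[ℂ] Module.End ℂ (HX X) := act (Gam ℂ ⊤) (KK h)

/-- the class of a cocycle in `H^*(X)` -/
def cl {m : ℤ} (c : CocyK ℂ X m) : HX X :=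
  el (M := (P275S.mapC (Gam ℂ ⊤)).obj (I ℂ X)) (m := m) c.1 c.2

/-- Deligne's `W_w H^*(X)` for the compactification `j` -/
def Wt (j : X ⟶ Y) (w : ℤ) : Submodule ℂ (HX X) :=
  Submodule.span ℂ {v | ∃ (m : ℤ) (c : CocyK ℂ X m), InWK j w c ∧ v = cl c}

end ops

/-- the twisted character variety as a space -/
abbrev TX (g n : ℕ) (d : ℤ) : TopCat.{0} := TopCat.of (XB g n d)

section props

variable {g n : ℕ} {d : ℤ} {V : Type} [AddCommGroup V] [Module ℂ V] [TopologicalSpace V]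

/-- the operator `D` on `Rh_* ℂ` -/
def Oper (h : C(XB g n d, V)) (e : End (IX (TX g n d))) (D : End (KK (TopCat.ofHom h))) : Prop :=
  e ∈ KG.deg ℂ _ _ 2 ∧ D ∈ KG.deg ℂ _ _ (-2) ∧ ∃ γ : ℂ, γ ≠ 0 ∧
    ⁅mulK (TopCat.ofHom h) e, ⁅mulK (TopCat.ofHom h) e, D⁆⁆ = γ • mulK (TopCat.ofHom h) e

/-- the support estimate -/
def Supp (h : C(XB g n d, V)) (e : End (IX (TX g n d))) : Prop :=
  ∀ c : ℤ, ∃ Z : Set V, ZarLE Z (2 * dimR g n - c - 1) ∧
    ∀ a ∉ Z, OntoF (Stk ℂ (X := TopCat.of V) a) (mulK (TopCat.ofHom h) e) c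

/-- curious hard Lefschetz, and the vanishing of the odd weights -/
def Chl (K : Cpt g n d) (e : End (IX (TX g n d))) : Prop :=
  P275JM.Lef (mulH _ e) (dimR g n) (fun a => Wt K.hom (2 * a)) ∧
    ∀ a : ℤ, Wt K.hom (2 * a + 1) = Wt K.hom (2 * a)

/-- an operator lowers the weights by four -/
def Low (K : Cpt g n d) (T : Module.End ℂ (HX (TX g n d))) : Prop :=
  ∀ a : ℤ, ∀ v ∈ Wt K.hom (2 * a), T v ∈ Wt K.hom (2 * (a - 2))

end props

/-- the hypotheses on `g, n, d` -/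
structure Adm (g n : ℕ) (d : ℤ) : Prop where
  hg : 2 ≤ g
  hn : 2 ≤ n
  cop : IsCoprime (n : ℤ) d

/-- The data fixed in the statement. -/
structure Sit : Type 1 where
  C : Type
  [top : TopologicalSpace C]
  [t2 : T2Space C]
  [cpt : CompactSpace C]
  [con : ConnectedSpace C]
  [chs : ChartedSpace ℂ C]
  [man : IsManifold 𝓘(ℂ) ω C]
  p : C
  x₀ : Pc p
  g : ℕ
  n : ℕ
  D : C →₀ ℤ
  M : Marking g p x₀
  adm : Adm g n (deg D)
  ℓ : C → ℂ
  triv : IsTriv D p ℓ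

attribute [instance] Sit.top Sit.t2 Sit.cpt Sit.con Sit.chs Sit.man

/-- `h` is the Hitchin map, read on the character variety -/
def Sit.IsHit (S : Sit) (h : C(XB S.g S.n (deg S.D), Base S.C S.n)) : Prop :=
  ∀ (E : Higgs S.C S.n S.D) ρ, NAH S.M S.ℓ E ρ → E.Hit (h ρ.pt)

/-- a marking exists -/
def MARK : Prop := ∀ (C : Type) [TopologicalSpace C] [T2Space C] [CompactSpace C]
  [ConnectedSpace C] [ChartedSpace ℂ C] [IsManifold 𝓘(ℂ) ω C] (p : C) (x₀ : Pc p),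
  ∃ g, Nonempty (Marking g p x₀)

/-- a smooth trivialisation exists -/
def TRV : Prop := ∀ (C : Type) [TopologicalSpace C] [T2Space C] [CompactSpace C]
  [ConnectedSpace C] [ChartedSpace ℂ C] [IsManifold 𝓘(ℂ) ω C] (p : C) (D : C →₀ ℤ),
  ∃ ℓ, IsTriv D p ℓ

/-- a compactification exists -/
def CPT : Prop := ∀ (g n : ℕ) (d : ℤ), Adm g n d → Nonempty (Cpt g n d)

/-- the Hitchin base has finite dimension -/
def FDB : Prop := ∀ S : Sit, FiniteDimensional ℂ (Base S.C S.n)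

/-- the nonabelian Hodge correspondence, and the proper Hitchin map -/
def NAHB : Prop := ∀ S : Sit,
  (∀ E : Higgs S.C S.n S.D, ∃ ρ, NAH S.M S.ℓ E ρ) ∧
  (∀ ρ, ∃ E : Higgs S.C S.n S.D, NAH S.M S.ℓ E ρ) ∧
  (∀ (E E' : Higgs S.C S.n S.D) ρ ρ', NAH S.M S.ℓ E ρ → NAH S.M S.ℓ E' ρ' →
    (E.Iso E' ↔ ρ.pt = ρ'.pt)) ∧
  ∃ h, S.IsHit h ∧ IsProperMap h

/-- the abstract part: Jacobson-Morozov, splitting, duality -/
def PABS : Prop := ∀ (g n : ℕ) (d : ℤ) (V : Type) [AddCommGroup V] [Module ℂ V]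
  [TopologicalSpace V] [IsTopologicalAddGroup V] [ContinuousSMul ℂ V] [T2Space V]
  [FiniteDimensional ℂ V] (h : C(XB g n d, V)) (e : End (IX (TX g n d)))
  (D : End (KK (TopCat.ofHom h))), Nonempty (Cpt g n d) → IsProperMap h → Oper h e D →
  Supp h e → (∀ K : Cpt g n d, Chl K e ∧ Low K (glob _ D)) → Concl ℂ h

/-- descent from `ℂ` to `ℚ` -/
def QC : Prop := ∀ (g n : ℕ) (d : ℤ) (V : Type) [AddCommGroup V] [Module ℂ V]
  [TopologicalSpace V] [IsTopologicalAddGroup V] [ContinuousSMul ℂ V] [T2Space V]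
  [FiniteDimensional ℂ V] (h : C(XB g n d, V)), Nonempty (Cpt g n d) → IsProperMap h →
  Concl ℂ h → Concl ℚ h

/-- the geometric core -/
def CORE : Prop := ∀ (S : Sit) (h : C(XB S.g S.n (deg S.D), Base S.C S.n)), S.IsHit h →
  IsProperMap h → ∃ e D, Oper h e D ∧ Supp h e ∧
    ∀ K : Cpt S.g S.n (deg S.D), Chl K e ∧ Low K (glob _ D)

theorem pw_of (h1 : MARK) (h2 : TRV) (h3 : CPT) (h4 : FDB) (h5 : NAHB) (h6 : PABS) (h7 : QC)
    (h8 : CORE) : PW := by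
  intro C _ _ _ _ _ _ p x₀
  refine ⟨h1 C p x₀, fun g n D M hg hn hc => ⟨h2 C p D, h3 g n _ ⟨hg, hn, hc⟩, fun ℓ hℓ => ?_⟩⟩
  let S : Sit := { C, p, x₀, g, n, D, M, adm := ⟨hg, hn, hc⟩, ℓ, triv := hℓ }
  obtain ⟨a1, a2, a3, h, hh, hp⟩ := h5 S
  obtain ⟨e, T, b1, b2, b3⟩ := h8 S h hh hp
  have := h4 S
  have hK := h3 g n _ ⟨hg, hn, hc⟩
  exact ⟨a1, a2, a3, h, hh, h7 g n _ _ h hK hp (h6 g n _ _ h e T hK hp b1 b2 b3)⟩

end Vale.Agent.P275Z
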