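import Vale.Agent.P275Z.Brg
import Vale.Agent.P275PG.Blk
import Vale.Agent.P275S.Real

/-!
# P275, skeleton, level two: the geometric core from its blocks
-/

open scoped Topology
open CategoryTheory Filter Set
open Vale.Agent.P275MO
open Vale.Agent.P275DL (Sys)
open Vale.Agent.P275ST (Higgs XB Base Cpt deg dimR)
open Vale.Agent.P275PG (pbc MerP NumP Mdl SUPP Chr M0)
open P275S (H Hd K IK Gam KG evK evI pushK cU gcl)

noncomputable section

set_option backward.isDefEq.respectTransparency false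

namespace Vale.Agent.P275Z

section ring

variable {X Y : TopCat.{0}}

/-- the cohomology ring as the cohomology of the global sections -/
def evX (X : TopCat.{0}) : H ℂ X ≃ₗ[ℂ] HX X := (evI ℂ X).trans (P275S.glob (IK ℂ X))

theorem evX_apply (a : H ℂ X) : evX X a = P275S.glob (IK ℂ X) (evI ℂ X a) := rfl

theorem evX_mul (a b : H ℂ X) : evX X (a * b) = mulH X a (evX X b) := by
  have h1 : evI ℂ X (a * b) = evI ℂ X b ≫ a := (Category.assoc (P275S.unit ℂ X) b a).symm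
  rw [evX_apply, h1, P275S.glob_comp]
  rfl

theorem evX_gcl {m : ℤ} (c : CocyK ℂ X m) : evX X ((evI ℂ X).symm (gcl c.1 c.2)) = cl c :=
  (congrArg (P275S.glob (IK ℂ X)) ((evI ℂ X).apply_symm_apply _)).trans (P275S.glob_gcl _ _)

theorem glob_evK (h : X ⟶ Y) (a : H ℂ X) : P275S.glob (K ℂ h) (evK h a) = evX X a := by
  have : ∀ x : P275S.kk ℂ X ⟶ IK ℂ X,
      P275S.glob (K ℂ h) (cU ℂ h ≫ (pushK ℂ h).map x) = P275S.glob (IK ℂ X) x := by
    intro x
    induction x using P275S.gcl_ind with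
    | h0 => simp only [Functor.map_zero, Limits.comp_zero, map_zero]
    | hmk n c hc =>
      exact (congrArg _ (P275S.cU_gcl h c hc)).trans
        ((P275S.glob_gcl _ _).trans (P275S.glob_gcl c hc).symm)
    | hadd x y hx hy =>
      rw [Functor.map_add, Preadditive.comp_add, map_add, map_add, hx, hy]
  rw [P275S.evK_eq]
  exact this _

theorem evX_act (h : X ⟶ Y) (φ : End (K ℂ h)) (a : H ℂ X) :
    evX X (P275S.actA h φ a) = glob h φ (evX X a) := by
  rw [← glob_evK h, ← glob_evK h, P275S.actA_apply, P275S.evK_act]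
  exact P275S.glob_comp _ _

/-- Deligne's weight filtration on the cohomology ring -/
def WH (j : X ⟶ Y) (w : ℤ) : Submodule ℂ (H ℂ X) := (Wt j w).comap (evX X).toLinearMap

end ring

section props

variable {g n : ℕ} {d : ℤ}

/-- curious hard Lefschetz and the vanishing of the odd weights, on the cohomology ring -/
def ChlH (Y : Cpt g n d) (e : H ℂ (TX g n d)) : Prop :=
  P275JM.Lef (LinearMap.mulLeft ℂ e) (dimR g n) (fun a => WH Y.hom (2 * a)) ∧
    ∀ a : ℤ, WH Y.hom (2 * a + 1) = WH Y.hom (2 * a)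

/-- an operator on the cohomology ring lowers the weights by four -/
def LowH (Y : Cpt g n d) (T : Module.End ℂ (H ℂ (TX g n d))) : Prop :=
  ∀ a : ℤ, ∀ v ∈ WH Y.hom (2 * a), T v ∈ WH Y.hom (2 * (a - 2))

end props

/-- **MOD**: Kuranishi charts; the moduli spaces are nice -/
def MOD : Prop := ∀ (S : Sit) (T : S.Atl), KUR S.n T.A T.l ∧ NICE S.n T.A T.l

/-- **SYS**: the Hitchin base as a linear system of polynomials -/
def SYS : Prop := ∀ (S : Sit) (T : S.Atl), MerP T.A S.p ∧ ∃ D : Sys T.A (Base S.C S.n) S.n,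
  (∀ (v : Base S.C S.n) (s : ℂ), ∃ v', ∀ k < S.n, ∀ i w,
    D.c k v' i w = s ^ (S.n - k) * D.c k v i w) ∧
  ∀ (E : Higgs S.C S.n S.D) (z : Ob T.A T.l (tauX S.n)) (b : Base S.C S.n), Rp T.A E z.1 →
    E.Hit b → Chr z.pt (D.P b)

/-- a notion of universal class on the moduli space without poles -/
abbrev UP : Type 1 := ∀ (S : Sit) (T : S.Atl), H ℂ (TopCat.of (T.M (tauX S.n))) → Prop

/-- the character variety as the space of Higgs bundles -/
def Sit.Brg.s0 {S : Sit} (B : S.Brg) : C(XB S.g S.n (deg S.D), B.T.M (tauX S.n)) :=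
  ⟨fun x => B.sg (0, x), B.emb.continuous⟩

/-- the class on the character variety -/
def Sit.Brg.cls {S : Sit} (B : S.Brg) (e : H ℂ (TopCat.of (B.T.M (tauX S.n)))) :
    H ℂ (TX S.g S.n (deg S.D)) := pbc B.s0 e

variable (U : UP)

/-- **UNV**: the universal class exists -/
def UNV : Prop := ∀ (S : Sit) (T : S.Atl), ∃ e, U S T e ∧ e ∈ Hd ℂ _ 2

/-- **NUM**: the Chern-Weil numbers of the universal class -/
def NUM : Prop := ∀ (S : Sit) (T : S.Atl) e, U S T e → ∃ κ, κ ≠ 0 ∧ NumP e κ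

/-- **CHL**: curious hard Lefschetz for the universal class -/
def CHL : Prop := ∀ (S : Sit) (B : S.Brg) e (Y : Cpt S.g S.n (deg S.D)), U S B.T e →
  ChlH Y (B.cls e)

/-- **OPW**: the operator, and its action on the weights -/
def OPW : Prop := ∀ (S : Sit) (B : S.Brg) (h : C(XB S.g S.n (deg S.D), Base S.C S.n)) e,
  S.IsHit h → IsProperMap h → U S B.T e → ∃ D : End (K ℂ (TopCat.ofHom h)), Oper h (B.cls e) D ∧
    ∀ Y : Cpt S.g S.n (deg S.D), LowH Y (P275S.actA (TopCat.ofHom h) D)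

variable {U}

theorem lef_equiv {V W : Type} [AddCommGroup V] [Module ℂ V] [AddCommGroup W] [Module ℂ W]
    (φ : V ≃ₗ[ℂ] W) {e : Module.End ℂ V} {e' : Module.End ℂ W} (he : ∀ v, φ (e v) = e' (φ v))
    {r : ℤ} {F : ℤ → Submodule ℂ W} (h : P275JM.Lef e r fun a => (F a).comap φ.toLinearMap) :
    P275JM.Lef e' r F := by
  have hp : ∀ (j : ℕ) v, φ ((e ^ j) v) = (e' ^ j) (φ v) := fun j => by
    induction j with
    | zero => exact fun _ => rfl
    | succ j ih => exact fun v => by rw [pow_succ, pow_succ, Module.End.mul_apply, ih, he]; rfl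
  refine ⟨fun a b hab v hv => ?_, ?_, fun v => ?_, fun a v hv => ?_, fun j v hv h1 => ?_,
    fun j v hv => ?_⟩
  · obtain ⟨u, rfl⟩ := φ.surjective v
    exact h.mono hab hv
  · obtain ⟨a, ha⟩ := h.bot
    refine ⟨a, (Submodule.eq_bot_iff _).2 fun v hv => ?_⟩
    obtain ⟨u, rfl⟩ := φ.surjective v
    rw [(Submodule.eq_bot_iff _).1 ha u hv, map_zero]
  · obtain ⟨u, rfl⟩ := φ.surjective v
    exact h.top u
  · obtain ⟨u, rfl⟩ := φ.surjective v
    exact he u ▸ h.up a u hv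
  · obtain ⟨u, rfl⟩ := φ.surjective v
    exact h.inj j u hv (by rwa [← hp] at h1)
  · obtain ⟨u, rfl⟩ := φ.surjective v
    obtain ⟨w, hw, h1⟩ := h.surj j u hv
    exact ⟨φ w, hw, by rw [← hp, ← map_sub]; exact h1⟩

theorem ChlH.chl {g n : ℕ} {d : ℤ} {Y : Cpt g n d} {e : H ℂ (TX g n d)} (h : ChlH Y e) :
    Chl Y e := by
  refine ⟨lef_equiv (evX (TX g n d)) (e := LinearMap.mulLeft ℂ e) (fun v => evX_mul e v) h.1,
    fun a => ?_⟩
  exact Submodule.comap_injective_of_surjective (f := (evX (TX g n d)).toLinearMap)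
    (evX (TX g n d)).surjective (h.2 a)

theorem LowH.low {g n : ℕ} {d : ℤ} {Y : Cpt g n d} {V : TopCat.{0}} {h : TX g n d ⟶ V}
    {D : End (K ℂ h)} (hD : LowH Y (P275S.actA h D)) : Low Y (glob h D) := by
  intro a v hv
  obtain ⟨u, rfl⟩ := (evX _).surjective v
  rw [← evX_act]
  exact hD a u hv

/-- the Higgs moduli space as a model over the base -/
theorem exists_mdl (h2 : RPA) (h3 : SYS) {S : Sit} (B : S.Brg)
    {h : C(XB S.g S.n (deg S.D), Base S.C S.n)} (hh : S.IsHit h) :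
    ∃ M : Mdl S h, (KUR S.n B.T.A B.T.l → KUR S.n M.A M.l) ∧
      (NICE S.n B.T.A B.T.l → NICE S.n M.A M.l) ∧
      ∀ e κ, κ ≠ 0 → NumP e κ → M.Num (B.cls e) := by
  obtain ⟨mer, D, scal, chr⟩ := h3 S B.T
  obtain ⟨-, a2, -⟩ := h2 S B.T
  have m0 : ∀ x, (B.sg (0, x)).lam = 0 ∧ (B.sg (0, x)).x = S.p := fun x =>
    ⟨by simpa using B.lam 0 x, B.x 0 x⟩
  let ι : XB S.g S.n (deg S.D) → M0 B.T.A B.T.l (tauX S.n) S.p := fun x => ⟨B.sg (0, x), m0 x⟩
  have hι : IsHomeomorph ι := by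
    refine isHomeomorph_iff_isEmbedding_surjective.2 ⟨?_, fun y => ?_⟩
    · exact Topology.IsEmbedding.of_comp (B.emb.continuous.subtype_mk _) continuous_subtype_val B.emb
    · obtain ⟨x, hx⟩ := B.rng y.1 y.2.1 y.2.2
      exact ⟨x, Subtype.ext hx⟩
  have hν : ∀ y, B.sg (0, hι.homeomorph.symm y) = y.1 := fun y =>
    congrArg Subtype.val (hι.homeomorph.apply_symm_apply y)
  refine ⟨⟨B.T.A, B.T.l, B.T.std, tauX S.n, rfl, rfl, hι.homeomorph.symm, D, fun y => ?_, scal, mer⟩,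
    id, id, fun e κ hκ hn => ⟨e, κ, hκ, hn, ?_⟩⟩
  · obtain ⟨ρ, hρ⟩ := Quot.exists_rep (hι.homeomorph.symm y)
    obtain ⟨z, hz⟩ := pt_surj y.1
    obtain ⟨E, hE⟩ := a2 z (by have := y.2.1; rwa [← hz] at this)
    have e1 : z.pt = B.sg (0, ρ.pt) := by
      rw [hz, ← hν y, ← hρ]
      rfl
    have := chr E z _ hE (hh E ρ ((B.nah E ρ).2 ⟨z, e1, hE⟩))
    rw [hz] at this
    rw [← hρ]
    exact this
  · refine (P275S.pb_comp _ _ e).trans (congrArg (P275S.pb · e) ?_)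
    ext y
    exact hν y

theorem core_of (U : UP) (h1 : BRG) (h2 : RPA) (h3 : SYS) (h4 : MOD) (h5 : CPT) (h6 : FDB)
    (h7 : SUPP) (h8 : UNV U) (h9 : NUM U) (h10 : CHL U) (h11 : OPW U) : CORE := by
  intro S h hh hp
  obtain ⟨B⟩ := h1 S
  obtain ⟨e, he, hd⟩ := h8 S B.T
  obtain ⟨κ, hκ, hn⟩ := h9 S B.T e he
  obtain ⟨D, hD, hl⟩ := h11 S B h e hh hp he
  obtain ⟨M, m1, m2, m3⟩ := exists_mdl h2 h3 B hh
  obtain ⟨Y⟩ := h5 _ _ _ S.adm
  exact ⟨B.cls e, D, hD, h7 S h M Y _ hp (h6 S) (m1 (h4 S B.T).1) (m2 (h4 S B.T).2)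
    (P275S.pb_mem _ hd) (m3 e κ hκ hn) (h10 S B e Y he).chl,
    fun Y => ⟨(h10 S B e Y he).chl, (hl Y).low⟩⟩

end Vale.Agent.P275Z
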