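import Vale.Agent.P275MO.Defs

/-!
# P275, skeleton: the types of the moduli problems
-/

open Matrix
open Vale.Agent.P281Z.Hm (Mx)
open Vale.Agent.P275MO (Ty)

noncomputable section

namespace Vale.Agent.P275Z

variable {n : ℕ}

/-- upper triangular matrices -/
def bor (n : ℕ) : Subalgebra ℂ (Mx (Fin n)) where
  carrier := {h | h.BlockTriangular id}
  mul_mem' := fun ha hb => BlockTriangular.mul ha hb
  add_mem' := fun ha hb => BlockTriangular.add ha hb
  algebraMap_mem' := fun c => by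
    rw [Algebra.algebraMap_eq_smul_one]
    intro i j hij
    exact (congrArg (c • ·) (Matrix.one_apply_ne (ne_of_gt hij))).trans (smul_zero c)

theorem mem_bor {h : Mx (Fin n)} : h ∈ bor n ↔ ∀ a b, b < a → h a b = 0 :=
  ⟨fun hh _ _ e => hh e, fun hh _ _ e => hh _ _ e⟩

theorem diag_mul {g h : Mx (Fin n)} (hg : g ∈ bor n) (hh : h ∈ bor n) (a : Fin n) :
    (g * h) a a = g a a * h a a := by
  rw [Matrix.mul_apply, Finset.sum_eq_single a]
  · intro b _ hb
    rcases lt_or_gt_of_ne hb with e | e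
    · rw [mem_bor.1 hg _ _ e, zero_mul]
    · rw [mem_bor.1 hh _ _ e, mul_zero]
  · simp

theorem inv_mem_bor {h : Mx (Fin n)} (hh : h ∈ bor n) (hd : h.det ≠ 0) : h⁻¹ ∈ bor n := by
  let := invertibleOfIsUnitDet h (Ne.isUnit hd)
  exact blockTriangular_inv_of_blockTriangular hh

theorem diag_conj {h R : Mx (Fin n)} (hh : h ∈ bor n) (hd : h.det ≠ 0) (hR : R ∈ bor n)
    (a : Fin n) : (h * R * h⁻¹) a a = R a a := by
  have h1 := diag_mul hh (inv_mem_bor hh hd) a
  rw [Matrix.mul_nonsing_inv _ (Ne.isUnit hd), Matrix.one_apply_eq] at h1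
  rw [diag_mul ((bor n).mul_mem hh hR) (inv_mem_bor hh hd), diag_mul hh hR]
  linear_combination (-R a a) * h1

/-- upper triangular matrices with constant diagonal -/
def uni (n : ℕ) : Subalgebra ℂ (Mx (Fin n)) where
  carrier := {h | h ∈ bor n ∧ ∀ a b, h a a = h b b}
  mul_mem' := fun ha hb => ⟨(bor n).mul_mem ha.1 hb.1, fun a b => by
    rw [diag_mul ha.1 hb.1, diag_mul ha.1 hb.1, ha.2 a b, hb.2 a b]⟩
  add_mem' := fun ha hb => ⟨(bor n).add_mem ha.1 hb.1, fun a b => by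
    rw [Matrix.add_apply, Matrix.add_apply, ha.2 a b, hb.2 a b]⟩
  algebraMap_mem' := fun c => ⟨(bor n).algebraMap_mem c, fun a b => by
    simp [Algebra.algebraMap_eq_smul_one]⟩

theorem uni_le : uni n ≤ bor n := fun _ h => h.1

/-- the positive roots `(a, b)`, `a < b`, written as `(b, a)` in the lexicographic order with the
second order reversed -/
def roots (n : ℕ) : Finset (Lex (Fin n × (Fin n)ᵒᵈ)) :=
  Finset.univ.filter fun p => OrderDual.ofDual (ofLex p).2 < (ofLex p).1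

/-- the number of positive roots -/
def nr (n : ℕ) : ℕ := (roots n).card

/-- the row of the `j`-th positive root -/
def ra (j : Fin (nr n)) : Fin n := OrderDual.ofDual (ofLex ((roots n).orderEmbOfFin rfl j)).2

/-- the column of the `j`-th positive root -/
def rb (j : Fin (nr n)) : Fin n := (ofLex ((roots n).orderEmbOfFin rfl j)).1

theorem ra_lt (j : Fin (nr n)) : ra j < rb j :=
  (Finset.mem_filter.1 ((roots n).orderEmbOfFin_mem rfl j)).2

theorem exists_root {a b : Fin n} (h : a < b) : ∃ j : Fin (nr n), ra j = a ∧ rb j = b := by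
  have : toLex (b, OrderDual.toDual a) ∈ Set.range ((roots n).orderEmbOfFin rfl) := by
    rw [Finset.range_orderEmbOfFin]
    exact Finset.mem_filter.2 ⟨Finset.mem_univ _, h⟩
  obtain ⟨j, hj⟩ := this
  exact ⟨j, congrArg (fun p => OrderDual.ofDual (ofLex p).2) hj, congrArg (fun p => (ofLex p).1) hj⟩

theorem root_le {i j : Fin (nr n)} :
    i ≤ j ↔ rb i < rb j ∨ (rb i = rb j ∧ ra j ≤ ra i) := by
  exact ((roots n).orderEmbOfFin rfl).le_iff_le.symm.trans Prod.Lex.le_iff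

theorem root_inj {i j : Fin (nr n)} (ha : ra i = ra j) (hb : rb i = rb j) : i = j :=
  le_antisymm (root_le.2 (Or.inr ⟨hb, ha.ge⟩)) (root_le.2 (Or.inr ⟨hb.symm, ha.le⟩))

/-- the chain of ideals: strictly upper triangular matrices whose first `k` root coordinates
vanish -/
def nk (n k : ℕ) : Submodule ℂ (Mx (Fin n)) where
  carrier := {R | (∀ a b, b ≤ a → R a b = 0) ∧ ∀ j : Fin (nr n), (j : ℕ) < k → R (ra j) (rb j) = 0}
  add_mem' := fun ha hb => ⟨fun a b e => by simp [ha.1 a b e, hb.1 a b e],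
    fun j e => by simp [ha.2 j e, hb.2 j e]⟩
  zero_mem' := ⟨fun _ _ _ => rfl, fun _ _ => rfl⟩
  smul_mem' := fun c _ ha => ⟨fun a b e => by simp [ha.1 a b e], fun j e => by simp [ha.2 j e]⟩

theorem nk_bor {k : ℕ} {R : Mx (Fin n)} (h : R ∈ nk n k) : R ∈ bor n :=
  mem_bor.2 fun a b e => h.1 a b e.le

theorem nk_uni {k : ℕ} {R : Mx (Fin n)} (h : R ∈ nk n k) : R ∈ uni n :=
  ⟨nk_bor h, fun a b => by rw [h.1 a a le_rfl, h.1 b b le_rfl]⟩

theorem nk_anti {k k' : ℕ} (h : k ≤ k') : nk n k' ≤ nk n k :=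
  fun _ hR => ⟨hR.1, fun j e => hR.2 j (e.trans_le h)⟩

theorem nk_top : nk n (nr n) = ⊥ := by
  refine eq_bot_iff.2 fun R hR => ?_
  ext a b
  rcases le_or_gt b a with e | e
  · exact hR.1 a b e
  · obtain ⟨j, rfl, rfl⟩ := exists_root e
    exact hR.2 j j.2

/-- the next root coordinate of a product -/
theorem root_mul {g h R : Mx (Fin n)} (hg : g ∈ bor n) (hh : h ∈ bor n) (j : Fin (nr n))
    (hR : R ∈ nk n j) :
    (g * R * h) (ra j) (rb j) = g (ra j) (ra j) * R (ra j) (rb j) * h (rb j) (rb j) := by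
  have key : ∀ a b, ra j ≤ a → b ≤ rb j → (a ≠ ra j ∨ b ≠ rb j) → R a b = 0 := fun a b h1 h2 h3 => by
    rcases le_or_gt b a with e | e
    · exact hR.1 a b e
    · obtain ⟨i, rfl, rfl⟩ := exists_root e
      refine hR.2 i (lt_of_le_of_ne (root_le.2 ?_) ?_)
      · rcases h2.lt_or_eq with e' | e'
        · exact Or.inl e'
        · exact Or.inr ⟨e', h1⟩
      · intro e'
        rw [Fin.ext e'] at h3
        simp at h3
  have step : ∀ b, b ≤ rb j → (g * R) (ra j) b = g (ra j) (ra j) * R (ra j) b := fun b hb => by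
    rw [Matrix.mul_apply, Finset.sum_eq_single (ra j)]
    · intro a _ ha
      rcases lt_or_gt_of_ne ha with e | e
      · rw [mem_bor.1 hg _ _ e, zero_mul]
      · rw [key a b e.le hb (Or.inl ha), mul_zero]
    · simp
  rw [Matrix.mul_apply, Finset.sum_eq_single (rb j), step _ le_rfl]
  · intro b _ hb
    rcases lt_or_gt_of_ne hb with e | e
    · rw [step b e.le, key _ b le_rfl e.le (Or.inr hb), mul_zero, zero_mul]
    · rw [mem_bor.1 hh _ _ e, mul_zero]
  · simp

theorem mul_mem_nk {k : ℕ} {g h R : Mx (Fin n)} (hg : g ∈ bor n) (hh : h ∈ bor n)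
    (hR : R ∈ nk n k) : g * R * h ∈ nk n k := by
  have h1 := (bor n).mul_mem hg (nk_bor hR)
  refine ⟨fun a b e => ?_, fun j e => ?_⟩
  · rcases e.lt_or_eq with e | rfl
    · exact mem_bor.1 ((bor n).mul_mem h1 hh) _ _ e
    · rw [diag_mul h1 hh, diag_mul hg (nk_bor hR), hR.1 _ _ le_rfl, mul_zero, zero_mul]
  · rw [root_mul hg hh j (nk_anti e.le hR), hR.2 j e, mul_zero, zero_mul]

/-- no pole, no flag: the Hodge moduli space times the curve -/
def tauX (n : ℕ) : Ty n where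
  H := ⊤
  q := ⊥
  m := 0
  η := 0
  tr R h := by rw [(Submodule.mem_bot ℂ).1 h, trace_zero]
  conj _ _ _ R h := by rw [(Submodule.mem_bot ℂ).1 h]; simp
  onto _ := ⟨0, Submodule.zero_mem _, Subsingleton.elim _ _⟩

/-- frames modulo `H`, nilpotent residue in the `k`-th ideal -/
def tauN (H : Subalgebra ℂ (Mx (Fin n))) (hH : H ≤ bor n) (k : ℕ) : Ty n where
  H := H
  q := nk n k
  m := 0
  η := 0
  tr _ h := Finset.sum_eq_zero fun a _ => h.1 a a le_rfl
  conj _ hh hd _ hR := ⟨mul_mem_nk (hH hh) (inv_mem_bor (hH hh) hd) hR, rfl⟩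
  onto _ := ⟨0, Submodule.zero_mem _, Subsingleton.elim _ _⟩

/-- full flags, nilpotent residue in the `k`-th ideal -/
abbrev tauZ (n k : ℕ) : Ty n := tauN (bor n) le_rfl k

/-- the principal torus bundle over the space of type `tauZ` -/
abbrev tauU (n k : ℕ) : Ty n := tauN (uni n) uni_le k

/-- the cocharacter `n (1 - n, 1, .., 1)` -/
def mu (n : ℕ) (a : Fin n) : ℂ := n * (if (a : ℕ) = 0 then (1 : ℂ) - n else 1)

theorem sum_mu (n : ℕ) : ∑ a, mu n a = 0 := by
  rcases n with _ | n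
  · simp
  · rw [Fin.sum_univ_succ]
    simp [mu]
    ring

/-- upper triangular matrices with diagonal `z μ` -/
def qY (n : ℕ) : Submodule ℂ (Mx (Fin n)) where
  carrier := {R | R ∈ bor n ∧ ∃ z : ℂ, ∀ a, R a a = z * mu n a}
  add_mem' := fun ⟨ha, z, hz⟩ ⟨hb, w, hw⟩ => ⟨(bor n).add_mem ha hb, z + w, fun a => by
    rw [Matrix.add_apply, hz, hw, add_mul]⟩
  zero_mem' := ⟨(bor n).zero_mem, 0, fun _ => by simp⟩
  smul_mem' := fun c _ ⟨ha, z, hz⟩ => ⟨(bor n).smul_mem ha c, c * z, fun a => by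
    rw [Matrix.smul_apply, hz, smul_eq_mul, mul_assoc]⟩

/-- the parameter `z` of a matrix with diagonal `z μ` -/
def zY (n : ℕ) : Mx (Fin n) →ₗ[ℂ] ℂ where
  toFun R := (∑ a, mu n a ^ 2)⁻¹ * ∑ a, mu n a * R a a
  map_add' R S := by simp [mul_add, Finset.sum_add_distrib]
  map_smul' c R := by simp [Finset.mul_sum, mul_left_comm]

theorem sum_mu_sq (hn : 2 ≤ n) : ∑ a, mu n a ^ 2 ≠ 0 := by
  obtain ⟨m, rfl⟩ : ∃ m, n = m + 1 := ⟨n - 1, by omega⟩
  have h1 : ∑ a, mu (m + 1) a ^ 2 = (((m + 1) ^ 3 * m : ℕ) : ℂ) := by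
    rw [Fin.sum_univ_succ]
    simp [mu]
    ring
  rw [h1, Nat.cast_ne_zero]
  have : 0 < m := by omega
  positivity

theorem zY_eq (hn : 2 ≤ n) {R : Mx (Fin n)} {z : ℂ} (h : ∀ a, R a a = z * mu n a) :
    zY n R = z := by
  change (∑ a, mu n a ^ 2)⁻¹ * ∑ a, mu n a * R a a = z
  have : ∑ a, mu n a * R a a = (∑ a, mu n a ^ 2) * z := by
    rw [Finset.sum_mul]
    exact Finset.sum_congr rfl fun a _ => by rw [h]; ring
  rw [this, ← mul_assoc, inv_mul_cancel₀ (sum_mu_sq hn), one_mul]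

/-- full flags, residue with diagonal `z μ` -/
def tauY (hn : 2 ≤ n) : Ty n where
  H := bor n
  q := qY n
  m := 1
  η := LinearMap.pi fun _ => zY n
  tr R := fun ⟨_, z, hz⟩ => by
    change ∑ a, R a a = 0
    rw [Finset.sum_congr rfl fun a _ => hz a, ← Finset.mul_sum, sum_mu, mul_zero]
  conj h hh hd R := fun ⟨hR, z, hz⟩ => by
    have h1 : ∀ a, (h * R * h⁻¹) a a = z * mu n a := fun a => by rw [diag_conj hh hd hR, hz]
    exact ⟨⟨(bor n).mul_mem ((bor n).mul_mem hh hR) (inv_mem_bor hh hd), z, h1⟩,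
      funext fun _ => (zY_eq hn h1).trans (zY_eq hn hz).symm⟩
  onto y := ⟨diagonal fun a => y 0 * mu n a, ⟨blockTriangular_diagonal _, y 0, fun a => by simp⟩,
    funext fun i => by
      rw [Subsingleton.elim i 0]
      exact zY_eq hn fun a => by simp⟩

theorem nk_le_qY (k : ℕ) : nk n k ≤ qY n :=
  fun _ h => ⟨nk_bor h, 0, fun a => by rw [h.1 a a le_rfl, zero_mul]⟩

theorem mem_nk_zero (hn : 2 ≤ n) {R : Mx (Fin n)} : R ∈ nk n 0 ↔ R ∈ qY n ∧ zY n R = 0 := by
  constructor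
  · exact fun h => ⟨nk_le_qY 0 h, zY_eq hn fun a => by rw [h.1 a a le_rfl, zero_mul]⟩
  · rintro ⟨⟨h, z, hz⟩, h0⟩
    rw [zY_eq hn hz] at h0
    refine ⟨fun a b e => ?_, fun _ e => absurd e (Nat.not_lt_zero _)⟩
    rcases e.lt_or_eq with e | rfl
    · exact mem_bor.1 h _ _ e
    · rw [hz, h0, zero_mul]

end Vale.Agent.P275Z
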