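import Vale.Agent.P275S.HC

/-!
# P275, skeleton: sheaf cohomology as a cohomology theory with Chern classes; the top component
along a curve
-/

open CategoryTheory
open P275S (H Hd KG pb c1 Nice)
open P275CC (Th LB Nc PFib inc)

noncomputable section

set_option backward.isDefEq.respectTransparency false

namespace Vale.Agent.P275Z

/-- the cohomology ring of a space -/
abbrev HH (X : Type) [TopologicalSpace X] : Type := H ℂ (TopCat.of X)

/-- pull back along a continuous map -/
def pq {X Y : Type} [TopologicalSpace X] [TopologicalSpace Y] (f : C(X, Y)) : HH Y →ₐ[ℂ] HH X :=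
  pb (TopCat.ofHom f)

instance nice_of_nc (X : Type) [TopologicalSpace X] [h : Nc X] : Nice (TopCat.of X) :=
  ⟨h.lc, h.t2, h.sc⟩

section c1

variable {X Y : Type} [TopologicalSpace X] [TopologicalSpace Y]

/-- the first Chern class -/
def cq (L : LB X) : HH X := c1 (X := TopCat.of X) L

theorem cq_eq (L : LB X) : cq L = c1 (X := TopCat.of X) L := rfl

theorem cq_mem (L : LB X) : cq L ∈ Hd ℂ (TopCat.of X) 2 := P275S.c1_mem (X := TopCat.of X) L

theorem cq_pb (f : C(X, Y)) (L : LB Y) : cq (L.pb f) = pq f (cq L) :=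
  P275S.c1_pb (TopCat.ofHom f) L

theorem cq_mul (L L' : LB X) : cq (L.mul L') = cq L + cq L' :=
  P275S.c1_mul (X := TopCat.of X) L L'

theorem cq_triv {L : LB X} (h : L.Triv) : cq L = 0 := P275S.c1_triv (X := TopCat.of X) h

attribute [irreducible] cq

end c1

/-- **MV0**: the product of two classes which vanish on the members of an open cover -/
def MV0 : Prop := ∀ (X : Type) [TopologicalSpace X] [Nc X] (W W' : Set X) (a b : HH X),
  IsOpen W → IsOpen W' → W ∪ W' = Set.univ → pq (inc W) a = 0 → pq (inc W') b = 0 → a * b = 0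

/-- **LHP**: Leray-Hirsch for fibres which are projective spaces -/
def LHP : Prop := ∀ {X Y : Type} [TopologicalSpace X] [TopologicalSpace Y] [Nc X] [Nc Y]
  (π : C(Y, X)) (L : LB Y) (r e : ℕ), IsProperMap π → e ≠ 0 → (∀ x, PFib L (π ⁻¹' {x}) r e) →
  Function.Bijective fun a : Fin (r + 1) → HH X =>
    ∑ i, pq π (a i) * cq L ^ (i : ℕ)

/-- sheaf cohomology with first Chern classes -/
def thOf (h : MV0 ∧ LHP) : Th where
  H X _ := HH X
  ring _ _ := inferInstance
  alg _ _ := inferInstance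
  pb f := pq f
  pb_id _ _ a := P275S.pb_id a
  pb_comp f g a := (P275S.pb_comp (TopCat.ofHom f) (TopCat.ofHom g) a).symm
  pr _ _ j := KG.pr j
  pr_pb f j a := (P275S.pb_pr (TopCat.ofHom f) j a).symm
  pr_pr _ _ i j a := by
    split_ifs with e
    · exact e ▸ KG.pr_of_mem (KG.pr_mem_deg i a)
    · exact KG.pr_of_ne (KG.pr_mem_deg j a) (Ne.symm e)
  pr_sum _ _ a := (KG.exists_sum_pr a).imp fun _ e => e.2
  pr_one _ _ := KG.pr_of_mem P275S.one_mem_Hd
  pr_neg _ _ j a hj := P275S.eq_zero_of_neg hj (KG.pr_mem_deg j a)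
  pr_mul _ _ _ _ _ _ ha hb := KG.pr_of_mem (P275S.mul_mem_Hd rfl (KG.mem_deg_iff_pr.2 ha)
    (KG.mem_deg_iff_pr.2 hb))
  comm _ _ _ _ _ _ _ ha hb := P275S.mul_comm_Hd (KG.mem_deg_iff_pr.2 ha) (KG.mem_deg_iff_pr.2 hb)
  empty _ _ _ a := P275S.H_empty a
  mv := h.1
  c1 L := cq L
  c1_deg L := KG.pr_of_mem (cq_mem L)
  c1_pb f L := cq_pb f L
  c1_mul L L' := cq_mul L L'
  c1_triv _ e := cq_triv e
  lh := h.2

section top

variable (X C : Type) [TopologicalSpace X] [TopologicalSpace C]

/-- the classes on `X × C` of degree at most one along `C` -/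
def Low1 : Submodule ℂ (HH (X × C)) := Submodule.span ℂ
  {w | ∃ (u : HH X) (j : ℤ) (v : HH C), j ≤ 1 ∧ v ∈ Hd ℂ (TopCat.of C) j ∧
    w = pq ContinuousMap.fst u * pq ContinuousMap.snd v}

variable {X C}

/-- `b` is the coefficient of `κ` in `a` -/
def TopC (κ : HH C) (a : HH (X × C)) (b : HH X) : Prop :=
  a - pq ContinuousMap.fst b * pq ContinuousMap.snd κ ∈ Low1 X C

end top

end Vale.Agent.P275Z
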