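import Vale.Agent.P275Z.Mid
import Vale.Agent.P275Z.Th
import Vale.Agent.P275MM.Defs
import Vale.Agent.P275CC.Chi

/-!
# P275, skeleton: the universal class
-/

open Vale.Agent.P275GC (At)
open Vale.Agent.P275NA (Cy)
open Vale.Agent.P275MO
open Vale.Agent.P275MM (Sys Hy)
open P275S (Hd)
open P275CC (Nc)

noncomputable section

namespace Vale.Agent.P275Z

/-- `e` is the integral over the curve, normalised by `κ`, of the sum of the squares of the Chern
roots of the endomorphisms of the universal bundle of `Sy` -/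
def IsE (h : MV0 ∧ LHP) {C : Type} [TopologicalSpace C] {n : ℕ} {A : At C} {l : Cy A ℂ}
    [Hy A l n] {τ : Ty n} {T : Type} [TopologicalSpace T] [Nc (T × C)] (Sy : Sys A l τ T)
    (κ : HH C) (e : HH T) : Prop := TopC κ ((thOf h).p2 Sy.tb.End).1 e

/-- **The universal class** on the moduli space of objects without pole -/
def IsU (h : MV0 ∧ LHP) : UP := fun S T e =>
  ∃ (_ : Hy T.A T.l S.n) (_ : Nc (T.M (tauX S.n) × S.C))
    (Sy : Sys T.A T.l (tauX S.n) (T.M (tauX S.n))) (κ : HH S.C),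
    Sy.f = id ∧ κ ∈ Hd ℂ (TopCat.of S.C) 2 ∧ κ ≠ 0 ∧ IsE h Sy κ e

end Vale.Agent.P275Z
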