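import Vale.Agent.P275Z.Univ
import Vale.Agent.P275PA.Main
import Vale.Agent.P275S.QC
import Vale.Agent.P275PG.Fin
import Vale.Agent.P275NB.Fin
import Vale.Agent.P275XB.Cpt
import Vale.Agent.P275AD.Trv
import Vale.Agent.P275HB.Fdb

/-!
# P275, skeleton: the statement from the blocks which are still open
-/

namespace Vale.Agent.P275Z

/-- the global nonabelian Hodge map -/
def NUA : Prop := ∀ (S : Sit) (T : S.Atl), P275NU.NU T.A S.n T.l

theorem pw_fin (h : MV0 ∧ LHP) (mark : MARK) (rhf : RHF) (nu : NUA) (hit : HITX) (mod : MOD)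
    (unv : UNV (IsU h)) (num : NUM (IsU h)) (chl : CHL (IsU h)) (opw : OPW (IsU h)) :
    P275ST.PW :=
  pw_of mark P275AD.trv_ex P275XB.cpt P275HB.fdb (P275NB.nahb' rhf nu hit) P275PA.pabs P275S.qc
    (core_of (IsU h) (P275NB.brg' rhf nu) P275AD.rpa' P275PG.sys mod P275XB.cpt P275HB.fdb
      P275PG.supp' unv num chl opw)

end Vale.Agent.P275Z
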