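import Vale.Agent.P275SF.Bridge
import Vale.Agent.P275Z.Fin
import Vale.Agent.P275S.ThZ
import Vale.Agent.P275RH.Mark
import Vale.Agent.P275RL.Fin
import Vale.Agent.P275RL.Pk
import Vale.Agent.P275NU.Fin
import Vale.Agent.P275HN.Fin
import Vale.Agent.P275KG.Fin
import Vale.Agent.P275NM.Opw
import Vale.Agent.P275NM.Main
import Vale.Agent.P275DS.Chl
import Vale.Agent.P275GQ.Fin
import Vale.Agent.P275B.Fin

/-!
# P275: all blocks together
-/

namespace Vale.Agent.P275Z

theorem pw : P275SF.PW :=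
  P275SF.bridge (pw_fin P275S.mv0_lhp P275RH.mark P275RL.rhf_ok
    (fun _ T => P275NU.nu_ok T.std (P275KG.kur_ok T.std)) P275HN.hitx P275KG.mod
    (P275NM.unv _ P275KG.mod) (P275NM.num _)
    (P275DS.chl_of P275RK.pkx (P275GQ.cmpb_ok _))
    (P275NM.opw _ P275B.wou))

end Vale.Agent.P275Z
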